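import Vale.Agent.P368.Final

namespace Vale.Agent.Results.P368.ParityNotQAC

open Vale.Agent.P368

theorem result :
    (¬ ∃ (d : ℕ) (p : Polynomial ℕ) (ε : ℝ) (N : ℕ → ℕ) (C : ∀ n, List (Layer (N n)))
        (out : ∀ n, Fin (N n)), 0 < ε ∧ ∀ n, n ≤ N n ∧ N n ≤ p.eval n ∧ (C n).length ≤ d ∧
          ∀ x : Bits n, 1 / 2 + ε ≤ outProb (C n) (out n) x (parity x)) ∧
    (∀ (d c : ℕ) (ε : ℝ), 0 < ε → ∃ n0 : ℕ, ∀ n ≥ n0, ∀ N : ℕ, n ≤ N → N ≤ n ^ c →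
      ∀ C : List (Layer N), C.length ≤ d → ∀ out : Fin N,
        |(∑ x : Bits n, (outProb C out x (parity x) - outProb C out x (!parity x))) / 2 ^ n| ≤ ε ∧
        ∃ x : Bits n, outProb C out x (parity x) < 1 / 2 + ε) := by
  constructor
  · rintro ⟨d, p, ε, N, C, out, hε, h⟩
    obtain ⟨n0, hn0⟩ := main_corr d (p.natDegree + 1) ε hε
    obtain ⟨h1, h2, h3, h4⟩ := h (n0 + p.eval 1 + 1)
    obtain ⟨x, hx⟩ := main_worst _ _ ε hε
      (hn0 _ (by omega) _ h1 (h2.trans (poly_le p _ (by omega) (by omega))) _ h3 (out _))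
    exact absurd (h4 x) (not_le.2 hx)
  · intro d c ε hε
    obtain ⟨n0, hn0⟩ := main_corr d c ε hε
    exact ⟨n0, fun n hn N h1 h2 C hC out =>
      ⟨hn0 n hn N h1 h2 C hC out, main_worst C out ε hε (hn0 n hn N h1 h2 C hC out)⟩⟩

end Vale.Agent.Results.P368.ParityNotQAC
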